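import Vale.Agent.P271.Filt.Quot

/-!
# P271 / Chain : the sup distance of filtrations, scaling, the domain of the slope functional,
completeness

Only the values of the weight functions at nonzero vectors matter.
-/

set_option linter.all false

open Filter Topology

namespace Vale.Agent.P271.Chain

open Module Vale.Agent.P271.Filt Vale.Agent.P271.Filt.Wt

variable {K : Type*} {V : Type*} [Field K] [AddCommGroup V] [Module K V]

/-! ### Scaling -/

/-- The filtration `t F` (for `t ≥ 0`). -/
noncomputable def scale (t : ℝ) (F : Wt K V) : Wt K V where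
  w x := max t 0 * F.w x
  smul_le' c x hc hx := mul_le_mul_of_nonneg_left (F.smul_le' c x hc hx) (le_max_right _ _)
  add' x y hx hy hxy := by
    have h := F.add' x y hx hy hxy
    have h0 : 0 ≤ max t 0 := le_max_right _ _
    rcases le_total (F.w x) (F.w y) with h1 | h1
    · rw [min_eq_left h1] at h
      exact (min_le_left _ _).trans (mul_le_mul_of_nonneg_left h h0)
    · rw [min_eq_right h1] at h
      exact (min_le_right _ _).trans (mul_le_mul_of_nonneg_left h h0)

theorem scale_w {t : ℝ} (ht : 0 ≤ t) (F : Wt K V) (x : V) : (scale t F).w x = t * F.w x := by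
  simp [scale, max_eq_left ht]

theorem scale_adapted {t : ℝ} (ht : 0 ≤ t) {F : Wt K V} {ι : Type*} {b : Basis ι K V}
    (hb : F.Adapted b) : (scale t F).Adapted b := by
  intro x i hi
  rw [scale_w ht, scale_w ht]
  exact mul_le_mul_of_nonneg_left (hb x i hi) ht

/-- The filtration with all weights shifted by a constant. -/
noncomputable def shift (c : ℝ) (F : Wt K V) : Wt K V where
  w x := F.w x + c
  smul_le' a x ha hx := by
    have := F.smul_le' a x ha hx
    linarith
  add' x y hx hy hxy := by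
    rw [min_add_add_right]
    have := F.add' x y hx hy hxy
    linarith

@[simp] theorem shift_w (c : ℝ) (F : Wt K V) (x : V) : (shift c F).w x = F.w x + c := rfl

/-- The trivial filtration. -/
noncomputable def zeroF : Wt K V where
  w _ := 0
  smul_le' _ _ _ _ := le_rfl
  add' _ _ _ _ _ := by simp

@[simp] theorem zeroF_w (x : V) : (zeroF : Wt K V).w x = 0 := rfl

open Classical in
/-- The filtration with weight one on `P` and zero outside. -/
noncomputable def ind (P : Submodule K V) : Wt K V where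
  w x := if x ∈ P then 1 else 0
  smul_le' := by
    intro c x hc _
    by_cases hx : x ∈ P
    · rw [if_pos hx, if_pos (P.smul_mem c hx)]
    · rw [if_neg hx]
      split_ifs <;> norm_num
  add' := by
    intro x y _ _ _
    by_cases hx : x ∈ P
    · by_cases hy : y ∈ P
      · rw [if_pos (P.add_mem hx hy)]
        exact (min_le_left _ _).trans (by rw [if_pos hx])
      · refine (min_le_right _ _).trans ?_
        rw [if_neg hy]
        split_ifs <;> norm_num
    · refine (min_le_left _ _).trans ?_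
      rw [if_neg hx]
      split_ifs <;> norm_num

theorem ind_of_mem {P : Submodule K V} {x : V} (hx : x ∈ P) : (ind P).w x = 1 := by
  simp [ind, hx]

theorem ind_of_not_mem {P : Submodule K V} {x : V} (hx : x ∉ P) : (ind P).w x = 0 := by
  simp [ind, hx]

/-! ### The domain -/

/-- The filtrations with nonnegative weights, vanishing outside `Hz` (the sections that vanish at
the point). -/
structure Dom (Hz : Submodule K V) (F : Wt K V) : Prop where
  nonneg : ∀ x, x ≠ 0 → 0 ≤ F.w x
  zero : ∀ x, x ∉ Hz → F.w x = 0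

theorem dom_zeroF (Hz : Submodule K V) : Dom Hz (zeroF : Wt K V) :=
  ⟨fun _ _ => le_rfl, fun _ _ => rfl⟩

theorem dom_ind (Hz : Submodule K V) : Dom Hz (ind Hz) := by
  refine ⟨fun x _ => ?_, fun x hx => ind_of_not_mem hx⟩
  by_cases hx : x ∈ Hz
  · rw [ind_of_mem hx]; norm_num
  · rw [ind_of_not_mem hx]

theorem Dom.scale {Hz : Submodule K V} {F : Wt K V} (hF : Dom Hz F) {t : ℝ} (ht : 0 ≤ t) :
    Dom Hz (scale t F) := by
  refine ⟨fun x hx => ?_, fun x hx => ?_⟩
  · rw [scale_w ht]; exact mul_nonneg ht (hF.nonneg x hx)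
  · rw [scale_w ht, hF.zero x hx, mul_zero]

section FD

variable [FiniteDimensional K V]

theorem exists_basis_not_mem {ι : Type*} [Fintype ι] (b : Basis ι K V) {P : Submodule K V} {x : V}
    (hx : x ∉ P) : ∃ i, b.repr x i ≠ 0 ∧ b i ∉ P := by
  by_contra hcon
  push Not at hcon
  apply hx
  rw [← b.sum_repr x]
  refine Submodule.sum_mem _ (fun i _ => ?_)
  by_cases hi : b.repr x i = 0
  · rw [hi, zero_smul]; exact P.zero_mem
  · exact P.smul_mem _ (hcon i hi)

theorem Dom.joint {Hz : Submodule K V} {F G : Wt K V} (hF : Dom Hz F) (hG : Dom Hz G) {t : ℝ}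
    (ht : 0 ≤ t) : Dom Hz (F.joint G t) := by
  refine ⟨fun x hx => ?_, fun x hx => ?_⟩
  · exact le_trans (add_nonneg (mul_nonneg ht (hF.nonneg x hx)) (hG.nonneg x hx))
      (joint_ge F G ht hx)
  · have hx0 : x ≠ 0 := fun h => hx (h ▸ Hz.zero_mem)
    obtain ⟨b, hbF, hbG⟩ := F.exists_adapted₂ G
    obtain ⟨i, hi, hib⟩ := exists_basis_not_mem b hx
    apply le_antisymm
    · have h1 := joint_adapted ht hbF hbG x i hi
      rw [joint_basis ht hbF hbG, hF.zero _ hib, hG.zero _ hib] at h1
      simpa using h1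
    · exact le_trans (add_nonneg (mul_nonneg ht (hF.nonneg x hx0)) (hG.nonneg x hx0))
        (joint_ge F G ht hx0)

/-! ### The distance -/

/-- The sup distance of two filtrations. -/
noncomputable def dst (F G : Wt K V) : ℝ := ⨆ x : {x : V // x ≠ 0}, |F.w x - G.w x|

theorem exists_bound (F : Wt K V) : ∃ B : ℝ, 0 ≤ B ∧ ∀ x, x ≠ 0 → |F.w x| ≤ B := by
  obtain ⟨B, hB⟩ := F.finite_values.bddAbove
  obtain ⟨C, hC⟩ := F.finite_values.bddBelow
  refine ⟨max |B| |C|, (abs_nonneg _).trans (le_max_left _ _), fun x hx => ?_⟩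
  have h1 : F.w x ≤ B := hB ⟨x, hx, rfl⟩
  have h2 : C ≤ F.w x := hC ⟨x, hx, rfl⟩
  rw [abs_le]
  constructor
  · have := neg_abs_le C
    have := le_max_right |B| |C|
    linarith
  · exact (h1.trans (le_abs_self B)).trans (le_max_left _ _)

theorem bddAbove_dst (F G : Wt K V) :
    BddAbove (Set.range fun x : {x : V // x ≠ 0} => |F.w x - G.w x|) := by
  obtain ⟨B, -, hB⟩ := exists_bound F
  obtain ⟨C, -, hC⟩ := exists_bound G
  refine ⟨B + C, ?_⟩
  rintro _ ⟨x, rfl⟩
  exact (abs_sub _ _).trans (add_le_add (hB _ x.2) (hC _ x.2))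

theorem abs_le_dst (F G : Wt K V) {x : V} (hx : x ≠ 0) : |F.w x - G.w x| ≤ dst F G :=
  le_ciSup (bddAbove_dst F G) (⟨x, hx⟩ : {x : V // x ≠ 0})

omit [FiniteDimensional K V] in
theorem dst_le {F G : Wt K V} {δ : ℝ} (hδ : 0 ≤ δ) (h : ∀ x, x ≠ 0 → |F.w x - G.w x| ≤ δ) :
    dst F G ≤ δ :=
  Real.iSup_le (fun x => h _ x.2) hδ

omit [FiniteDimensional K V] in
theorem dst_nonneg (F G : Wt K V) : 0 ≤ dst F G := Real.iSup_nonneg fun _ => abs_nonneg _

omit [FiniteDimensional K V] in
theorem dst_self (F : Wt K V) : dst F F = 0 :=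
  le_antisymm (dst_le le_rfl fun x _ => by simp) (dst_nonneg _ _)

omit [FiniteDimensional K V] in
theorem dst_comm (F G : Wt K V) : dst F G = dst G F := by
  simp only [dst, abs_sub_comm]

theorem dst_triangle (F G H : Wt K V) : dst F H ≤ dst F G + dst G H := by
  refine dst_le (add_nonneg (dst_nonneg _ _) (dst_nonneg _ _)) fun x hx => ?_
  calc |F.w x - H.w x| ≤ |F.w x - G.w x| + |G.w x - H.w x| := abs_sub_le _ _ _
    _ ≤ _ := add_le_add (abs_le_dst F G hx) (abs_le_dst G H hx)

theorem le_add_dst (F G : Wt K V) {x : V} (hx : x ≠ 0) : F.w x ≤ G.w x + dst F G := by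
  have := (abs_le.1 (abs_le_dst F G hx)).2
  linarith

/-- The joint filtration is `1`-Lipschitz in both variables. -/
theorem dst_joint_le (F G F' G' : Wt K V) :
    dst (F.joint G 1) (F'.joint G' 1) ≤ dst F F' + dst G G' := by
  have key : ∀ F G F' G' : Wt K V, ∀ x, x ≠ 0 →
      (F.joint G 1).w x ≤ (F'.joint G' 1).w x + (dst F F' + dst G G') := by
    intro F G F' G' x hx
    have h := joint_le_of F G (t := 1) (shift (dst F F' + dst G G') (F'.joint G' 1))
      (fun y hy => by
        rw [shift_w]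
        have h1 := joint_ge F' G' (zero_le_one : (0:ℝ) ≤ 1) hy
        have h2 := le_add_dst F F' hy
        have h3 := le_add_dst G G' hy
        linarith) hx
    exact h
  refine dst_le (add_nonneg (dst_nonneg _ _) (dst_nonneg _ _)) fun x hx => ?_
  rw [abs_le]
  constructor
  · have := key F' G' F G x hx
    rw [dst_comm F' F, dst_comm G' G] at this
    linarith
  · have := key F G F' G' x hx
    linarith

theorem dst_scale {t : ℝ} (ht : 0 ≤ t) (F G : Wt K V) :
    dst (scale t F) (scale t G) ≤ t * dst F G := by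
  refine dst_le (mul_nonneg ht (dst_nonneg _ _)) fun x hx => ?_
  rw [scale_w ht, scale_w ht, ← mul_sub, abs_mul, abs_of_nonneg ht]
  exact mul_le_mul_of_nonneg_left (abs_le_dst F G hx) ht

theorem dst_scale_scale {s t : ℝ} (hs : 0 ≤ s) (ht : 0 ≤ t) (F : Wt K V) :
    dst (scale s F) (scale t F) ≤ |s - t| * dst F zeroF := by
  refine dst_le (mul_nonneg (abs_nonneg _) (dst_nonneg _ _)) fun x hx => ?_
  rw [scale_w hs, scale_w ht, ← sub_mul, abs_mul]
  refine mul_le_mul_of_nonneg_left ?_ (abs_nonneg _)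
  have := abs_le_dst F zeroF hx
  simpa using this

/-- `s F + t F = (s + t) F`. -/
theorem dst_joint_scale {s t : ℝ} (hs : 0 ≤ s) (ht : 0 ≤ t) (F : Wt K V) :
    dst ((scale s F).joint (scale t F) 1) (scale (s + t) F) = 0 := by
  apply le_antisymm _ (dst_nonneg _ _)
  refine dst_le le_rfl fun x hx => ?_
  have hb := F.adapted_adb
  have h1 := joint_adapted (zero_le_one : (0:ℝ) ≤ 1) (scale_adapted hs hb) (scale_adapted ht hb)
  have h2 := scale_adapted (add_nonneg hs ht) hb
  have h3 := h1.eq_of_eq h2 (fun i => by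
    rw [joint_basis (zero_le_one : (0:ℝ) ≤ 1) (scale_adapted hs hb) (scale_adapted ht hb),
      scale_w hs, scale_w ht, scale_w (add_nonneg hs ht)]
    ring) hx
  rw [h3]
  simp

theorem eq_of_dst_eq_zero {F G : Wt K V} (h : dst F G = 0) {x : V} (hx : x ≠ 0) :
    F.w x = G.w x := by
  have := abs_le_dst F G hx
  rw [h] at this
  have := abs_nonpos_iff.1 this
  linarith

/-! ### Total weights are Lipschitz -/

theorem T_le_of_le_add {F G : Wt K V} {δ : ℝ} (h : ∀ x, x ≠ 0 → F.w x ≤ G.w x + δ) :
    F.T ≤ G.T + finrank K V * δ := by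
  rw [← F.adapted_adb.sum_eq]
  calc ∑ i, F.w (F.adb i) ≤ ∑ i, (G.w (F.adb i) + δ) :=
        Finset.sum_le_sum fun i _ => h _ (F.adb.ne_zero i)
    _ = ∑ i, G.w (F.adb i) + finrank K V * δ := by
        rw [Finset.sum_add_distrib]; simp
    _ ≤ _ := by
        have := sum_le_T (F := G) F.adb
        linarith

theorem TQ_le_of_le_add {F G : Wt K V} {δ : ℝ} (P : Submodule K V)
    (h : ∀ x, x ≠ 0 → F.w x ≤ G.w x + δ) : F.TQ P ≤ G.TQ P + finrank K (V ⧸ P) * δ := by
  refine T_le_of_le_add fun q hq => ?_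
  obtain ⟨y, hy, hyw⟩ := F.exists_lift P hq
  have hy0 : y ≠ 0 := by
    rintro rfl
    exact hq (by rw [← hy, map_zero])
  rw [← hyw]
  refine (h y hy0).trans ?_
  have := G.w_le_quot P (y := y) (by rw [hy]; exact hq)
  rw [hy] at this
  linarith

theorem abs_TQ_sub_le (F G : Wt K V) (P : Submodule K V) :
    |F.TQ P - G.TQ P| ≤ finrank K V * dst F G := by
  have h1 := TQ_le_of_le_add P (fun x hx => le_add_dst F G hx)
  have h2 := TQ_le_of_le_add P (fun x hx => le_add_dst G F hx)
  rw [dst_comm G F] at h2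
  have h3 : ((finrank K (V ⧸ P) : ℕ) : ℝ) ≤ finrank K V := by
    exact_mod_cast Submodule.finrank_quotient_le P
  have h4 := mul_le_mul_of_nonneg_right h3 (dst_nonneg F G)
  rw [abs_le]
  constructor <;> linarith

theorem TQ_scale {t : ℝ} (ht : 0 ≤ t) (F : Wt K V) (P : Submodule K V) :
    (scale t F).TQ P = t * F.TQ P := by
  classical
  obtain ⟨b, hb, hP⟩ := F.exists_adapted_compat P
  rw [TQ_eq_sum (scale_adapted ht hb) hP, TQ_eq_sum hb hP, Finset.mul_sum]
  exact Finset.sum_congr rfl fun i _ => scale_w ht F _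

theorem T_scale {t : ℝ} (ht : 0 ≤ t) (F : Wt K V) : (scale t F).T = t * F.T := by
  rw [← TQ_bot, ← TQ_bot, TQ_scale ht]

theorem TQ_congr {F G : Wt K V} (h : ∀ x, x ≠ 0 → F.w x = G.w x) (P : Submodule K V) :
    F.TQ P = G.TQ P :=
  le_antisymm (TQ_mono (fun x hx => (h x hx).le) P) (TQ_mono (fun x hx => (h x hx).ge) P)

/-- If `F ≤ G` the total weights differ by at least the distance. -/
theorem dst_le_T_sub {F G : Wt K V} (h : ∀ x, x ≠ 0 → F.w x ≤ G.w x) :
    dst F G ≤ G.T - F.T := by
  obtain ⟨b, hF, hG⟩ := F.exists_adapted₂ G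
  have hT : G.T - F.T = ∑ i, (G.w (b i) - F.w (b i)) := by
    rw [Finset.sum_sub_distrib, hF.sum_eq, hG.sum_eq]
  have hnn : ∀ i, 0 ≤ G.w (b i) - F.w (b i) := fun i => sub_nonneg.2 (h _ (b.ne_zero i))
  refine dst_le ?_ fun x hx => ?_
  · rw [hT]; exact Finset.sum_nonneg fun i _ => hnn i
  · rw [abs_sub_comm, abs_of_nonneg (sub_nonneg.2 (h x hx)), hT]
    obtain ⟨i, hi, hFi⟩ := hF.exists_eq hx
    have h1 : G.w x ≤ G.w (b i) := hG x i hi
    calc G.w x - F.w x ≤ G.w (b i) - F.w (b i) := by rw [hFi]; linarith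
      _ ≤ _ := Finset.single_le_sum (f := fun i => G.w (b i) - F.w (b i)) (fun j _ => hnn j)
        (Finset.mem_univ i)

/-! ### Completeness -/

theorem exists_limit {Hz : Submodule K V} (F : ℕ → Wt K V) (hF : ∀ n, Dom Hz (F n))
    (hc : ∀ ε > 0, ∃ N, ∀ p ≥ N, ∀ q ≥ N, dst (F p) (F q) < ε) :
    ∃ G : Wt K V, Dom Hz G ∧ Tendsto (fun n => dst (F n) G) atTop (𝓝 0) := by
  classical
  have hcau : ∀ x : V, x ≠ 0 → CauchySeq fun n => (F n).w x := by
    intro x hx
    rw [Metric.cauchySeq_iff]
    intro ε hε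
    obtain ⟨N, hN⟩ := hc ε hε
    refine ⟨N, fun p hp q hq => ?_⟩
    rw [Real.dist_eq]
    exact (abs_le_dst _ _ hx).trans_lt (hN p hp q hq)
  have hlim : ∀ x : V, ∃ l : ℝ, x ≠ 0 → Tendsto (fun n => (F n).w x) atTop (𝓝 l) := by
    intro x
    by_cases hx : x = 0
    · exact ⟨0, fun h => absurd hx h⟩
    · obtain ⟨l, hl⟩ := cauchySeq_tendsto_of_complete (hcau x hx)
      exact ⟨l, fun _ => hl⟩
  choose w hw using hlim
  let G : Wt K V :=
    { w := w
      smul_le' := by
        intro c x hc hx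
        exact le_of_tendsto_of_tendsto' (hw x hx) (hw (c • x) (smul_ne_zero hc hx))
          fun n => (F n).smul_le' c x hc hx
      add' := by
        intro x y hx hy hxy
        exact le_of_tendsto_of_tendsto' ((hw x hx).min (hw y hy)) (hw (x + y) hxy)
          fun n => (F n).add' x y hx hy hxy }
  have hconv : ∀ ε > 0, ∃ N, ∀ n ≥ N, dst (F n) G ≤ ε := by
    intro ε hε
    obtain ⟨N, hN⟩ := hc ε hε
    refine ⟨N, fun n hn => dst_le hε.le fun x hx => ?_⟩
    have h1 : Tendsto (fun q => |(F n).w x - (F q).w x|) atTop (𝓝 |(F n).w x - w x|) :=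
      (tendsto_const_nhds.sub (hw x hx)).abs
    refine le_of_tendsto h1 ?_
    filter_upwards [eventually_ge_atTop N] with q hq
    exact (abs_le_dst _ _ hx).trans (hN n hn q hq).le
  let G' : Wt K V :=
    { w := fun x => if x ∈ Hz then w x else 0
      smul_le' := by
        intro c x hc hx
        by_cases hxH : x ∈ Hz
        · rw [if_pos hxH, if_pos (Hz.smul_mem c hxH)]
          exact G.smul_le' c x hc hx
        · rw [if_neg hxH]
          split_ifs with h
          · exact absurd ((Hz.smul_mem_iff hc).1 h) hxH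
          · exact le_rfl
      add' := by
        intro x y hx hy hxy
        have hwnn : ∀ z : V, z ≠ 0 → 0 ≤ w z := fun z hz =>
          ge_of_tendsto' (hw z hz) fun n => (hF n).nonneg z hz
        by_cases hxH : x ∈ Hz
        · by_cases hyH : y ∈ Hz
          · rw [if_pos hxH, if_pos hyH, if_pos (Hz.add_mem hxH hyH)]
            exact G.add' x y hx hy hxy
          · refine (min_le_right _ _).trans ?_
            rw [if_neg hyH]
            split_ifs with h
            · exact hwnn _ hxy
            · exact le_rfl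
        · refine (min_le_left _ _).trans ?_
          rw [if_neg hxH]
          split_ifs with h
          · exact hwnn _ hxy
          · exact le_rfl }
  have hGG' : ∀ x, x ≠ 0 → G.w x = G'.w x := by
    intro x hx
    change w x = if x ∈ Hz then w x else 0
    split_ifs with h
    · rfl
    · have h2 : Tendsto (fun n => (F n).w x) atTop (𝓝 0) := by
        have : (fun n => (F n).w x) = fun _ => (0 : ℝ) := by
          funext n; exact (hF n).zero x h
        rw [this]; exact tendsto_const_nhds
      exact tendsto_nhds_unique (hw x hx) h2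
  refine ⟨G', ⟨fun x hx => ?_, fun x hx => ?_⟩, ?_⟩
  · rw [← hGG' x hx]
    exact ge_of_tendsto' (hw x hx) fun n => (hF n).nonneg x hx
  · change (if x ∈ Hz then w x else 0) = 0
    rw [if_neg hx]
  · rw [Metric.tendsto_atTop]
    intro ε hε
    obtain ⟨N, hN⟩ := hconv (ε / 2) (half_pos hε)
    refine ⟨N, fun n hn => ?_⟩
    rw [Real.dist_eq, sub_zero, abs_of_nonneg (dst_nonneg _ _)]
    have h1 : dst (F n) G' ≤ ε / 2 := by
      refine dst_le (half_pos hε).le fun x hx => ?_
      rw [← hGG' x hx]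
      exact (abs_le_dst _ _ hx).trans (hN n hn)
    linarith

end FD

end Vale.Agent.P271.Chain
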