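import Vale.Agent.P271.Chain.Metric

/-!
# P271 / Chain : Ekeland's principle for filtrations and the homogeneous remainder functional
-/

set_option linter.all false

open Filter Topology Set

namespace Vale.Agent.P271.Chain

/-- Ekeland's variational principle (weak form) on a complete pseudometric space. -/
theorem ekeland {X : Type*} [PseudoMetricSpace X] [CompleteSpace X] (f : X → ℝ)
    (hf : LowerSemicontinuous f) (hb : BddBelow (range f)) (x0 : X) {ε : ℝ} (hε : 0 < ε) :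
    ∃ x, f x + ε * dist x0 x ≤ f x0 ∧ ∀ y, f x ≤ f y + ε * dist x y := by
  classical
  set S : X → Set X := fun x => {y | f y + ε * dist x y ≤ f x} with hS
  have hself : ∀ x, x ∈ S x := fun x => by simp [hS]
  have htrans : ∀ x y z, y ∈ S x → z ∈ S y → z ∈ S x := by
    intro x y z hy hz
    simp only [hS, mem_setOf_eq] at hy hz ⊢
    have htri : dist x z ≤ dist x y + dist y z := dist_triangle x y z
    nlinarith
  have hclosed : ∀ x, IsClosed (S x) := by
    intro x
    have h1 : LowerSemicontinuous (fun y => f y + ε * dist x y) := by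
      refine hf.add ?_
      exact (continuous_const.mul (continuous_const.dist continuous_id)).lowerSemicontinuous
    exact h1.isClosed_preimage (f x)
  obtain ⟨b, hb⟩ := hb
  have hb' : ∀ x, b ≤ f x := fun x => hb (mem_range_self x)
  have hbdd : ∀ x, BddBelow (f '' S x) := fun x => ⟨b, by rintro _ ⟨y, -, rfl⟩; exact hb' y⟩
  have hne : ∀ x, (f '' S x).Nonempty := fun x => ⟨f x, x, hself x, rfl⟩
  have hchoice : ∀ (x : X) (n : ℕ), ∃ y ∈ S x, ∀ z ∈ S x, f y ≤ f z + (1/2 : ℝ)^n := by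
    intro x n
    have hlt : sInf (f '' S x) < sInf (f '' S x) + (1/2 : ℝ)^n := by
      have : (0:ℝ) < (1/2 : ℝ)^n := by positivity
      linarith
    obtain ⟨_, ⟨y, hy, rfl⟩, hy2⟩ := exists_lt_of_csInf_lt (hne x) hlt
    refine ⟨y, hy, fun z hz => ?_⟩
    have : sInf (f '' S x) ≤ f z := csInf_le (hbdd x) ⟨z, hz, rfl⟩
    linarith
  choose g hg1 hg2 using hchoice
  let u : ℕ → X := fun n => Nat.rec x0 (fun n x => g x n) n
  have hu0 : u 0 = x0 := rfl
  have husucc : ∀ n, u (n+1) = g (u n) n := fun n => rfl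
  have hmem1 : ∀ n, u (n+1) ∈ S (u n) := fun n => by rw [husucc]; exact hg1 _ _
  have hmem : ∀ n k, u (n+k) ∈ S (u n) := by
    intro n k
    induction k with
    | zero => exact hself _
    | succ k ih => exact htrans _ _ _ ih (hmem1 (n+k))
  have hclose : ∀ n z, z ∈ S (u (n+1)) → ε * dist (u (n+1)) z ≤ (1/2 : ℝ)^n := by
    intro n z hz
    have hz' : z ∈ S (u n) := htrans _ _ _ (hmem1 n) hz
    have h1 : f (u (n+1)) ≤ f z + (1/2 : ℝ)^n := by rw [husucc]; exact hg2 _ _ _ hz'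
    have h2 : f z + ε * dist (u (n+1)) z ≤ f (u (n+1)) := hz
    linarith
  have hcauchy : CauchySeq (fun n => u (n+1)) := by
    refine cauchySeq_of_le_geometric (1/2 : ℝ) (1/ε) (by norm_num) fun n => ?_
    have h1 := hclose n (u (n+1+1)) (hmem1 (n+1))
    rw [div_mul_eq_mul_div, one_mul, le_div_iff₀ hε]
    linarith
  obtain ⟨x, hx⟩ := cauchySeq_tendsto_of_complete hcauchy
  have hx' : Tendsto u atTop (𝓝 x) := (tendsto_add_atTop_iff_nat 1).1 hx
  have hxS : ∀ n, x ∈ S (u n) := by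
    intro n
    refine (hclosed (u n)).mem_of_tendsto hx' ?_
    filter_upwards [eventually_ge_atTop n] with k hk
    obtain ⟨j, rfl⟩ := Nat.exists_eq_add_of_le hk
    exact hmem n j
  refine ⟨x, ?_, ?_⟩
  · have := hxS 0
    simpa [hS, hu0] using this
  · intro y
    by_contra hcon
    push Not at hcon
    have hyS : y ∈ S x := by simp only [hS, mem_setOf_eq]; linarith
    have hy' : ∀ n, y ∈ S (u n) := fun n => htrans _ _ _ (hxS n) hyS
    have h1 : Tendsto (fun n => ε * dist (u (n+1)) y) atTop (𝓝 (ε * dist x y)) :=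
      (hx.dist tendsto_const_nhds).const_mul ε
    have h2 : Tendsto (fun n : ℕ => (1/2 : ℝ)^n) atTop (𝓝 0) :=
      tendsto_pow_atTop_nhds_zero_of_lt_one (by norm_num) (by norm_num)
    have h3 : ε * dist x y ≤ 0 := le_of_tendsto_of_tendsto' h1 h2 fun n => hclose n y (hy' (n+1))
    have h4 : dist x y = 0 := le_antisymm (by
      by_contra h5
      push Not at h5
      have := mul_pos hε h5
      linarith) dist_nonneg
    -- now f y < f x, but f x ≤ f (u n) ≤ f y + (1/2)^n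
    have h6 : ∀ n, f x ≤ f y + (1/2 : ℝ)^n := by
      intro n
      have h7 : f (u (n+1)) ≤ f y + (1/2 : ℝ)^n := by
        rw [husucc]; exact hg2 _ _ _ (hy' n)
      have h8 : f x + ε * dist (u (n+1)) x ≤ f (u (n+1)) := hxS (n+1)
      have h9 : 0 ≤ ε * dist (u (n+1)) x := mul_nonneg hε.le dist_nonneg
      linarith
    have h7 : f x ≤ f y + 0 := ge_of_tendsto' (tendsto_const_nhds.add h2) h6
    rw [h4] at hcon
    linarith

open Module Vale.Agent.P271.Filt Vale.Agent.P271.Filt.Wt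

variable {K : Type*} {V : Type*} [Field K] [AddCommGroup V] [Module K V]
  [FiniteDimensional K V]

/-- The pseudometric on the domain. -/
noncomputable abbrev pms (Hz : Submodule K V) : PseudoMetricSpace {F : Wt K V // Dom Hz F} where
  dist F G := dst F.1 G.1
  dist_self F := dst_self _
  dist_comm F G := dst_comm _ _
  dist_triangle F G H := dst_triangle _ _ _

theorem complete_pms (Hz : Submodule K V) :
    @CompleteSpace {F : Wt K V // Dom Hz F} (pms Hz).toUniformSpace := by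
  letI := pms Hz
  refine Metric.complete_of_cauchySeq_tendsto fun u hu => ?_
  rw [Metric.cauchySeq_iff] at hu
  obtain ⟨G, hG, hGlim⟩ := exists_limit (Hz := Hz) (fun n => (u n).1) (fun n => (u n).2) hu
  refine ⟨⟨G, hG⟩, ?_⟩
  rw [tendsto_iff_dist_tendsto_zero]
  exact hGlim

/-- Ekeland's principle on the domain. -/
theorem ekeland_dom {Hz : Submodule K V} (h : Wt K V → ℝ) (hnn : ∀ F, Dom Hz F → 0 ≤ h F)
    (hlsc : ∀ F, Dom Hz F → ∀ η > 0, ∃ δ > 0, ∀ G, Dom Hz G → dst F G < δ → h F - η ≤ h G)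
    {G0 : Wt K V} (hG0 : Dom Hz G0) {ε : ℝ} (hε : 0 < ε) :
    ∃ G : Wt K V, Dom Hz G ∧ h G + ε * dst G0 G ≤ h G0 ∧
      ∀ F, Dom Hz F → h G ≤ h F + ε * dst G F := by
  letI := pms Hz
  haveI := complete_pms Hz
  have hl : LowerSemicontinuous (fun F : {F : Wt K V // Dom Hz F} => h F.1) := by
    intro F y hy
    obtain ⟨δ, hδ, hδ'⟩ := hlsc F.1 F.2 ((h F.1 - y) / 2) (by linarith)
    rw [Metric.eventually_nhds_iff]
    refine ⟨δ, hδ, fun G hG => ?_⟩
    have h1 := hδ' G.1 G.2 (by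
      have : dist G F = dst G.1 F.1 := rfl
      rw [dst_comm, ← this]; exact hG)
    linarith
  obtain ⟨G, hG1, hG2⟩ := ekeland (fun F : {F : Wt K V // Dom Hz F} => h F.1) hl
    ⟨0, by rintro _ ⟨F, rfl⟩; exact hnn F.1 F.2⟩ ⟨G0, hG0⟩ hε
  exact ⟨G.1, G.2, hG1, fun F hF => hG2 ⟨F, hF⟩⟩

/-! ### The remainder functional -/

section Remainder

variable {Hz : Submodule K V} {h : Wt K V → ℝ} {ε : ℝ} {Gs : Wt K V}

/-- The remainder functional `D(G) = sup_{s ≥ 0} (s h(G*) - ε d(G, s G*))`. -/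
noncomputable def Dfun (h0 ε : ℝ) (Gs G : Wt K V) : ℝ :=
  ⨆ s : {s : ℝ // 0 ≤ s}, ((s : ℝ) * h0 - ε * dst G (scale s Gs))

/-- The assumptions: `h` is nonnegative and homogeneous, `Gs` is an Ekeland point. -/
structure EkPoint (Hz : Submodule K V) (h : Wt K V → ℝ) (ε : ℝ) (Gs : Wt K V) : Prop where
  eps : 0 < ε
  nn : ∀ F, Dom Hz F → 0 ≤ h F
  hom : ∀ F t, Dom Hz F → 0 ≤ t → h (scale t F) = t * h F
  dom : Dom Hz Gs
  ek : ∀ F, Dom Hz F → h Gs ≤ h F + ε * dst Gs F

theorem EkPoint.key (E : EkPoint Hz h ε Gs) {G : Wt K V} (hG : Dom Hz G) {s : ℝ} (hs : 0 ≤ s) :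
    s * h Gs - ε * dst G (scale s Gs) ≤ h G := by
  rcases hs.eq_or_lt with rfl | hs0
  · have := E.nn G hG
    have := mul_nonneg E.eps.le (dst_nonneg G (scale 0 Gs))
    linarith
  · have hinv : 0 ≤ s⁻¹ := inv_nonneg.2 hs
    have h1 := E.ek (scale s⁻¹ G) (hG.scale hinv)
    rw [E.hom G s⁻¹ hG hinv] at h1
    have h2 : dst Gs (scale s⁻¹ G) ≤ s⁻¹ * dst G (scale s Gs) := by
      refine dst_le (mul_nonneg hinv (dst_nonneg _ _)) fun x hx => ?_
      rw [scale_w hinv]
      have h3 := abs_le_dst G (scale s Gs) hx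
      rw [scale_w hs] at h3
      have h4 : Gs.w x - s⁻¹ * G.w x = -(s⁻¹ * (G.w x - s * Gs.w x)) := by
        field_simp
        ring
      rw [h4, abs_neg, abs_mul, abs_of_nonneg hinv]
      exact mul_le_mul_of_nonneg_left h3 hinv
    have h3 : h Gs ≤ s⁻¹ * h G + ε * (s⁻¹ * dst G (scale s Gs)) :=
      h1.trans (by have := mul_le_mul_of_nonneg_left h2 E.eps.le; linarith)
    have h4 := mul_le_mul_of_nonneg_left h3 hs
    have h5 : s * (s⁻¹ * h G + ε * (s⁻¹ * dst G (scale s Gs))) =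
        h G + ε * dst G (scale s Gs) := by
      field_simp
    linarith

theorem EkPoint.bdd (E : EkPoint Hz h ε Gs) {G : Wt K V} (hG : Dom Hz G) :
    BddAbove (range fun s : {s : ℝ // 0 ≤ s} => ((s : ℝ) * h Gs - ε * dst G (scale s Gs))) :=
  ⟨h G, by rintro _ ⟨s, rfl⟩; exact E.key hG s.2⟩

theorem EkPoint.D_le (E : EkPoint Hz h ε Gs) {G : Wt K V} (hG : Dom Hz G) :
    Dfun (h Gs) ε Gs G ≤ h G :=
  ciSup_le fun s => E.key hG s.2

theorem EkPoint.le_D (E : EkPoint Hz h ε Gs) {G : Wt K V} (hG : Dom Hz G) {s : ℝ} (hs : 0 ≤ s) :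
    s * h Gs - ε * dst G (scale s Gs) ≤ Dfun (h Gs) ε Gs G :=
  le_ciSup (E.bdd hG) (⟨s, hs⟩ : {s : ℝ // 0 ≤ s})

theorem EkPoint.D_self (E : EkPoint Hz h ε Gs) : Dfun (h Gs) ε Gs Gs = h Gs := by
  apply le_antisymm (E.D_le E.dom)
  have h1 := E.le_D E.dom (zero_le_one : (0:ℝ) ≤ 1)
  have h2 : dst Gs (scale 1 Gs) = 0 := by
    apply le_antisymm _ (dst_nonneg _ _)
    refine dst_le le_rfl fun x _ => ?_
    rw [scale_w zero_le_one]; simp
  rw [h2] at h1
  linarith

theorem EkPoint.D_lip (E : EkPoint Hz h ε Gs) {F G : Wt K V} (hF : Dom Hz F) (hG : Dom Hz G) :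
    Dfun (h Gs) ε Gs F ≤ Dfun (h Gs) ε Gs G + ε * dst F G := by
  refine ciSup_le fun s => ?_
  have h1 := E.le_D hG s.2
  have h2 := dst_triangle G F (scale s Gs)
  rw [dst_comm G F] at h2
  have h3 := mul_le_mul_of_nonneg_left h2 E.eps.le
  linarith

theorem EkPoint.D_super (E : EkPoint Hz h ε Gs) {F G : Wt K V} (hF : Dom Hz F) (hG : Dom Hz G) :
    Dfun (h Gs) ε Gs F + Dfun (h Gs) ε Gs G ≤ Dfun (h Gs) ε Gs (F.joint G 1) := by
  have hJ : Dom Hz (F.joint G 1) := hF.joint hG zero_le_one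
  have key : ∀ s t : ℝ, 0 ≤ s → 0 ≤ t →
      (s * h Gs - ε * dst F (scale s Gs)) + (t * h Gs - ε * dst G (scale t Gs)) ≤
        Dfun (h Gs) ε Gs (F.joint G 1) := by
    intro s t hs ht
    have h1 := E.le_D hJ (add_nonneg hs ht)
    have h2 : dst (F.joint G 1) (scale (s + t) Gs) ≤ dst F (scale s Gs) + dst G (scale t Gs) := by
      have h3 := dst_triangle (F.joint G 1) ((scale s Gs).joint (scale t Gs) 1)
        (scale (s + t) Gs)
      rw [dst_joint_scale hs ht, add_zero] at h3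
      exact h3.trans (dst_joint_le _ _ _ _)
    have h3 := mul_le_mul_of_nonneg_left h2 E.eps.le
    linarith
  have h1 : ∀ s : ℝ, 0 ≤ s → (s * h Gs - ε * dst F (scale s Gs)) + Dfun (h Gs) ε Gs G ≤
      Dfun (h Gs) ε Gs (F.joint G 1) := by
    intro s hs
    have h2 : Dfun (h Gs) ε Gs G ≤ Dfun (h Gs) ε Gs (F.joint G 1) -
        (s * h Gs - ε * dst F (scale s Gs)) :=
      ciSup_le fun t => by have := key s t hs t.2; linarith
    linarith
  have h2 : Dfun (h Gs) ε Gs F ≤ Dfun (h Gs) ε Gs (F.joint G 1) - Dfun (h Gs) ε Gs G :=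
    ciSup_le fun s => by have := h1 s s.2; linarith
  linarith

theorem EkPoint.D_scale_ge (E : EkPoint Hz h ε Gs) {F : Wt K V} (hF : Dom Hz F) {t : ℝ}
    (ht : 0 ≤ t) : t * Dfun (h Gs) ε Gs F ≤ Dfun (h Gs) ε Gs (scale t F) := by
  rcases ht.eq_or_lt with rfl | ht0
  · have h1 := E.le_D (hF.scale (le_refl (0:ℝ))) (le_refl (0:ℝ))
    have h2 : dst (scale 0 F) (scale 0 Gs) = 0 := by
      apply le_antisymm _ (dst_nonneg _ _)
      refine dst_le le_rfl fun x _ => ?_
      rw [scale_w le_rfl, scale_w le_rfl]; simp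
    rw [h2] at h1
    linarith
  · have h1 : Dfun (h Gs) ε Gs F ≤ t⁻¹ * Dfun (h Gs) ε Gs (scale t F) := by
      refine ciSup_le fun s => ?_
      have h2 := E.le_D (hF.scale ht) (mul_nonneg ht s.2)
      have h3 : dst (scale t F) (scale (t * s) Gs) ≤ t * dst F (scale s Gs) := by
        refine dst_le (mul_nonneg ht (dst_nonneg _ _)) fun x hx => ?_
        rw [scale_w ht, scale_w (mul_nonneg ht s.2)]
        have h4 := abs_le_dst F (scale s Gs) hx
        rw [scale_w s.2] at h4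
        have h5 : t * F.w x - t * s * Gs.w x = t * (F.w x - s * Gs.w x) := by ring
        rw [h5, abs_mul, abs_of_nonneg ht]
        exact mul_le_mul_of_nonneg_left h4 ht
      have h4 := mul_le_mul_of_nonneg_left h3 E.eps.le
      have h5 : t * (s * h Gs - ε * dst F (scale s Gs)) ≤ Dfun (h Gs) ε Gs (scale t F) := by
        linarith
      have h6 := mul_le_mul_of_nonneg_left h5 (inv_nonneg.2 ht)
      rwa [inv_mul_cancel_left₀ ht0.ne'] at h6
    have h2 := mul_le_mul_of_nonneg_left h1 ht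
    rwa [mul_inv_cancel_left₀ ht0.ne'] at h2

theorem EkPoint.D_hom (E : EkPoint Hz h ε Gs) {F : Wt K V} (hF : Dom Hz F) {t : ℝ}
    (ht : 0 ≤ t) : Dfun (h Gs) ε Gs (scale t F) = t * Dfun (h Gs) ε Gs F := by
  apply le_antisymm _ (E.D_scale_ge hF ht)
  rcases ht.eq_or_lt with rfl | ht0
  · have h1 := E.D_le (hF.scale (le_refl (0:ℝ)))
    rw [E.hom F 0 hF le_rfl] at h1
    simpa using h1
  · have h1 := E.D_scale_ge (hF.scale ht) (inv_nonneg.2 ht)
    have h2 : dst (scale t⁻¹ (scale t F)) F = 0 := by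
      apply le_antisymm _ (dst_nonneg _ _)
      refine dst_le le_rfl fun x _ => ?_
      rw [scale_w (inv_nonneg.2 ht), scale_w ht, inv_mul_cancel_left₀ ht0.ne']
      simp
    have h3 := E.D_lip ((hF.scale ht).scale (inv_nonneg.2 ht)) hF
    rw [h2, mul_zero, add_zero] at h3
    have h4 := mul_le_mul_of_nonneg_left (h1.trans h3) ht
    rwa [mul_inv_cancel_left₀ ht0.ne'] at h4

end Remainder

end Vale.Agent.P271.Chain
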