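import Vale.Agent.P271.Chain.Remainder

/-!
# P271 / Chain : the step theorem for an abstract slope functional
-/

set_option linter.all false

open Filter Topology Set

namespace Vale.Agent.P271.Chain

open Module Vale.Agent.P271.Filt Vale.Agent.P271.Filt.Wt

variable {K : Type*} {V : Type*} [Field K] [AddCommGroup V] [Module K V]
  [FiniteDimensional K V]

/-- The properties of the slope functional `a` (`= lct` of a filtration at the point) that are
used. Only filtrations in the domain and values at nonzero vectors matter. -/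
structure SlopeHyp (Hz : Submodule K V) (a : Wt K V → ℝ) (c0 : ℝ) : Prop where
  pos : 0 < c0
  low : ∀ F, Dom Hz F → c0 * F.T ≤ a F
  mono : ∀ F G, Dom Hz F → Dom Hz G → (∀ x, x ≠ 0 → F.w x ≤ G.w x) → a F ≤ a G
  hom : ∀ F t, Dom Hz F → 0 ≤ t → a (scale t F) = t * a F
  subadd : ∀ F G, Dom Hz F → Dom Hz G → a (F.joint G 1) ≤ a F + a G

namespace SlopeHyp

variable {Hz : Submodule K V} {a : Wt K V → ℝ} {c0 : ℝ}

theorem congr (ha : SlopeHyp Hz a c0) {F G : Wt K V} (hF : Dom Hz F) (hG : Dom Hz G)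
    (h : ∀ x, x ≠ 0 → F.w x = G.w x) : a F = a G :=
  le_antisymm (ha.mono F G hF hG fun x hx => (h x hx).le)
    (ha.mono G F hG hF fun x hx => (h x hx).ge)

theorem T_nonneg {F : Wt K V} (hF : Dom Hz F) : 0 ≤ F.T := by
  rw [← TQ_bot]
  exact TQ_nonneg hF.nonneg ⊥

theorem nonneg (ha : SlopeHyp Hz a c0) {F : Wt K V} (hF : Dom Hz F) : 0 ≤ a F :=
  (mul_nonneg ha.pos.le (T_nonneg hF)).trans (ha.low F hF)

theorem subadd' (ha : SlopeHyp Hz a c0) {F G : Wt K V} (hF : Dom Hz F) (hG : Dom Hz G) {t : ℝ}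
    (ht : 0 ≤ t) : a (F.joint G t) ≤ t * a F + a G := by
  have h1 : ∀ x, x ≠ 0 → (F.joint G t).w x = ((scale t F).joint G 1).w x := by
    intro x hx
    obtain ⟨b, hbF, hbG⟩ := F.exists_adapted₂ G
    have h2 := joint_adapted ht hbF hbG
    have h3 := joint_adapted (zero_le_one : (0:ℝ) ≤ 1) (scale_adapted ht hbF) hbG
    refine h2.eq_of_eq h3 (fun i => ?_) hx
    rw [joint_basis ht hbF hbG, joint_basis (zero_le_one : (0:ℝ) ≤ 1) (scale_adapted ht hbF) hbG,
      scale_w ht, one_mul]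
  rw [ha.congr (hF.joint hG ht) ((hF.scale ht).joint hG zero_le_one) h1]
  refine (ha.subadd _ _ (hF.scale ht) hG).trans ?_
  rw [ha.hom F t hF ht]

/-- Lower semicontinuity for the sup distance. -/
theorem lsc (ha : SlopeHyp Hz a c0) {F : Wt K V} (hF : Dom Hz F) {η : ℝ} (hη : 0 < η) :
    ∃ δ > 0, ∀ G, Dom Hz G → dst F G < δ → a F - η ≤ a G := by
  obtain ⟨l, hl, hl'⟩ : ∃ l > 0, ∀ x, x ≠ 0 → F.w x = 0 ∨ l ≤ F.w x := by
    by_cases hs : ∃ x ∈ {x : V | 0 < F.w x}, x ≠ 0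
    · obtain ⟨x, hx, hx0, hmin⟩ := F.exists_min _ hs
      refine ⟨F.w x, hx, fun y hy => ?_⟩
      rcases (hF.nonneg y hy).eq_or_lt with h | h
      · exact Or.inl h.symm
      · exact Or.inr (hmin y h hy)
    · refine ⟨1, one_pos, fun y hy => Or.inl ?_⟩
      by_contra hne
      exact hs ⟨y, lt_of_le_of_ne (hF.nonneg y hy) (Ne.symm hne), hy⟩
  have haF : 0 < a F + 1 := by have := ha.nonneg hF; linarith
  set θ : ℝ := min 1 (η / (a F + 1)) with hθ
  have hθ0 : 0 < θ := lt_min one_pos (div_pos hη haF)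
  have hθ1 : θ ≤ 1 := min_le_left _ _
  have hθ2 : θ * a F ≤ η := by
    have h1 : θ ≤ η / (a F + 1) := min_le_right _ _
    have h2 : θ * (a F + 1) ≤ η := (le_div_iff₀ haF).1 h1
    nlinarith
  refine ⟨θ * l, mul_pos hθ0 hl, fun G hG hd => ?_⟩
  have h1 : ∀ x, x ≠ 0 → (scale (1 - θ) F).w x ≤ G.w x := by
    intro x hx
    rw [scale_w (by linarith)]
    rcases hl' x hx with h | h
    · rw [h, mul_zero]; exact hG.nonneg x hx
    · have h2 := le_add_dst F G hx
      have h3 : θ * l ≤ θ * F.w x := mul_le_mul_of_nonneg_left h hθ0.le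
      nlinarith
  have h2 := ha.mono _ _ (hF.scale (by linarith : (0:ℝ) ≤ 1 - θ)) hG h1
  rw [ha.hom F _ hF (by linarith)] at h2
  nlinarith

end SlopeHyp

/-- The main part of the lower bound functional. -/
noncomputable def Th (k : ℕ) (P : ℕ → Submodule K V) (γ : ℕ → ℝ) (F : Wt K V) : ℝ :=
  ∑ j ∈ Finset.range k, γ j * F.TQ (P j)

/-- A stage of the chain. -/
structure State (Hz : Submodule K V) (a : Wt K V → ℝ) (c0 ε : ℝ) (k : ℕ) where
  P : ℕ → Submodule K V
  γ : ℕ → ℝ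
  F : Wt K V
  R : Wt K V → ℝ
  P0 : P 0 = ⊥
  Plt : ∀ j < k, P j < P (j + 1)
  γ0 : 0 < k → c0 ≤ γ 0
  γnn : ∀ j < k, 0 ≤ γ j
  dom : Dom Hz F
  sub0 : F.subGt 0 = P k
  step : ∀ j ≤ k, F.Step (P j)
  εnn : 0 ≤ ε
  εlt : ε < c0
  R0 : k = 0 → ∀ G, Dom Hz G → R G = 0
  Rhom : ∀ G t, Dom Hz G → 0 ≤ t → R (scale t G) = t * R G
  Rsup : ∀ G H, Dom Hz G → Dom Hz H → R G + R H ≤ R (G.joint H 1)
  Rlip : ∀ G H, Dom Hz G → Dom Hz H → R G ≤ R H + ε * dst G H
  le : ∀ G, Dom Hz G → Th k P γ G + R G ≤ a G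
  eq : a F = Th k P γ F + R F
  sat : ∀ G, Dom Hz G → (∀ x, x ≠ 0 → F.w x ≤ G.w x) → a G ≤ a F → ∀ x, x ≠ 0 → F.w x = G.w x

namespace State

variable {Hz : Submodule K V} {a : Wt K V → ℝ} {c0 ε : ℝ} {k : ℕ}

/-- The initial stage. -/
noncomputable def init (ha : SlopeHyp Hz a c0) : State Hz a c0 0 0 where
  P _ := ⊥
  γ _ := 0
  F := zeroF
  R _ := 0
  P0 := rfl
  Plt j hj := absurd hj (Nat.not_lt_zero _)
  γ0 h := absurd h (lt_irrefl _)
  γnn j hj := absurd hj (Nat.not_lt_zero _)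
  dom := dom_zeroF Hz
  sub0 := by
    rw [eq_bot_iff]
    intro x hx
    rw [Submodule.mem_bot]
    by_contra h0
    exact lt_irrefl _ (hx h0)
  step j _ := step_bot _
  εnn := le_rfl
  εlt := ha.pos
  R0 _ _ _ := rfl
  Rhom _ _ _ _ := by simp
  Rsup _ _ _ _ := by simp
  Rlip _ _ _ _ := by simp
  le G hG := by simp [Th, ha.nonneg hG]
  eq := by
    have h1 : a (scale 0 zeroF : Wt K V) = 0 * a zeroF := ha.hom _ _ (dom_zeroF Hz) le_rfl
    have h2 : a (zeroF : Wt K V) = a (scale 0 zeroF) :=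
      ha.congr (dom_zeroF Hz) ((dom_zeroF Hz).scale le_rfl) fun x _ => by
        rw [scale_w le_rfl]; simp
    rw [h2, h1]
    simp [Th]
  sat := by
    intro G hG _ hle x hx
    have h1 : a (scale 0 zeroF : Wt K V) = 0 * a zeroF := ha.hom _ _ (dom_zeroF Hz) le_rfl
    have h2 : a (zeroF : Wt K V) = a (scale 0 zeroF) :=
      ha.congr (dom_zeroF Hz) ((dom_zeroF Hz).scale le_rfl) fun x _ => by
        rw [scale_w le_rfl]; simp
    rw [h2, h1, zero_mul] at hle
    have h3 := ha.low G hG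
    have h4 : G.T ≤ 0 := by
      by_contra hcon
      push Not at hcon
      have := mul_pos ha.pos hcon
      linarith
    have h5 : (zeroF : Wt K V).T = 0 := by
      have : (scale 0 zeroF : Wt K V).T = 0 * zeroF.T := T_scale le_rfl _
      have h6 : (zeroF : Wt K V).T = (scale 0 zeroF : Wt K V).T := by
        rw [← TQ_bot, ← TQ_bot]
        exact TQ_congr (fun x _ => by rw [scale_w le_rfl]; simp) ⊥
      rw [h6, this, zero_mul]
    exact eq_of_le_of_T_le (fun x hx => hG.nonneg x hx) (by rw [h5]; exact h4) hx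

theorem Th_scale {P : ℕ → Submodule K V} {γ : ℕ → ℝ} {G : Wt K V} {t : ℝ} (ht : 0 ≤ t) :
    Th k P γ (scale t G) = t * Th k P γ G := by
  simp only [Th]
  rw [Finset.mul_sum]
  exact Finset.sum_congr rfl fun j _ => by rw [TQ_scale ht]; ring

theorem P_mono (S : State Hz a c0 ε k) {i j : ℕ} (hij : i ≤ j) (hj : j ≤ k) : S.P i ≤ S.P j := by
  induction j, hij using Nat.le_induction with
  | base => exact le_rfl
  | succ n hn ih => exact (ih (by omega)).trans (S.Plt n (by omega)).le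

theorem P_le_Hz (S : State Hz a c0 ε k) : S.P k ≤ Hz := by
  rw [← S.sub0]
  intro x hx
  by_contra hcon
  have hx0 : x ≠ 0 := fun h => hcon (h ▸ Hz.zero_mem)
  have := hx hx0
  rw [S.dom.zero x hcon] at this
  exact lt_irrefl _ this

theorem TQ_top (S : State Hz a c0 ε k) : S.F.TQ (S.P k) = 0 :=
  TQ_eq_zero S.dom.nonneg S.sub0.le

theorem w_pos_of_mem (S : State Hz a c0 ε k) {x : V} (hx : x ∈ S.P k) (h0 : x ≠ 0) :
    0 < S.F.w x := by
  rw [← S.sub0] at hx
  exact hx h0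

theorem w_zero_of_not_mem (S : State Hz a c0 ε k) {x : V} (hx : x ∉ S.P k) : S.F.w x = 0 := by
  have h0 : x ≠ 0 := fun h => hx (h ▸ (S.P k).zero_mem)
  by_contra hne
  apply hx
  rw [← S.sub0]
  exact fun _ => lt_of_le_of_ne (S.dom.nonneg x h0) (Ne.symm hne)

end State

/-! ### Gaps -/

/-- `P` is a step of `F` with gap larger than `δ`. -/
def Gap (F : Wt K V) (P : Submodule K V) (δ : ℝ) : Prop :=
  ∀ x ∈ P, x ≠ 0 → ∀ y, y ∉ P → F.w y + δ < F.w x

theorem step_of_gap {F : Wt K V} {P : Submodule K V} (h : Gap F P 0) : F.Step P := by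
  by_cases hs : ∃ x ∈ (P : Set V), x ≠ 0
  · obtain ⟨x, hx, hx0, hmin⟩ := F.exists_min _ hs
    refine ⟨F.w x, ?_⟩
    ext y
    constructor
    · intro hy
      by_contra hcon
      have hy0 : y ≠ 0 := fun h => hcon (h ▸ P.zero_mem)
      have h1 := h x hx hx0 y hcon
      have h2 := hy hy0
      linarith
    · intro hy hy0
      exact hmin y hy hy0
  · have : P = ⊥ := by
      rw [eq_bot_iff]
      intro x hx
      rw [Submodule.mem_bot]
      by_contra h0
      exact hs ⟨x, hx, h0⟩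
    rw [this]
    exact step_bot F

theorem Gap.of_dst {F G : Wt K V} {P : Submodule K V} {δ η : ℝ} (h : Gap F P δ)
    (hd : dst F G ≤ η) : Gap G P (δ - 2 * η) := by
  intro x hx hx0 y hy
  have hy0 : y ≠ 0 := fun h => hy (h ▸ P.zero_mem)
  have h1 := h x hx hx0 y hy
  have h2 := le_add_dst F G hx0
  have h3 := le_add_dst G F hy0
  rw [dst_comm G F] at h3
  linarith

/-- Strict steps have a positive gap. -/
theorem exists_gap {F : Wt K V} {P : Submodule K V} (h : F.Step P) : ∃ g > 0, Gap F P g := by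
  obtain ⟨c, hc⟩ := h
  by_cases hs : ∃ y ∈ ((P : Set V)ᶜ), y ≠ 0
  · obtain ⟨y, hy, hy0, hmax⟩ := F.exists_max _ hs
    have hyc : F.w y < c := by
      by_contra hcon
      push Not at hcon
      apply hy
      change y ∈ P
      rw [← hc]
      exact fun _ => hcon
    refine ⟨(c - F.w y) / 2, by linarith, fun x hx hx0 z hz => ?_⟩
    have hz0 : z ≠ 0 := fun h => hz (h ▸ P.zero_mem)
    have h1 : c ≤ F.w x := by
      rw [← hc] at hx
      exact hx hx0
    have h2 := hmax z hz hz0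
    linarith
  · refine ⟨1, one_pos, fun x _ _ z hz => ?_⟩
    exact absurd ⟨z, hz, fun h => hz (h ▸ P.zero_mem)⟩ hs

/-- For large `t` the strict steps of `F` are steps of `t F + G` with large gaps. -/
theorem exists_gap_joint {F G : Wt K V} {P : Submodule K V} (h : F.Step P) (δ : ℝ) :
    ∃ t₀ : ℝ, 0 ≤ t₀ ∧ ∀ t, t₀ ≤ t → Gap (F.joint G t) P δ := by
  obtain ⟨g, hg, hgap⟩ := exists_gap h
  obtain ⟨B, hB0, hB⟩ := exists_bound G
  refine ⟨max 0 ((2 * B + |δ| + 1) / g), le_max_left _ _, fun t ht => ?_⟩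
  have ht0 : 0 ≤ t := (le_max_left _ _).trans ht
  have htg : 2 * B + |δ| + 1 ≤ t * g := by
    have := (le_max_right _ _).trans ht
    exact (div_le_iff₀ hg).1 this
  intro x hx hx0 y hy
  have h1 := joint_ge F G ht0 hx0
  obtain ⟨b, hbF, hbG⟩ := F.exists_adapted₂ G
  obtain ⟨i, hi, hib⟩ := exists_basis_not_mem b hy
  have h2 := joint_adapted ht0 hbF hbG y i hi
  rw [joint_basis ht0 hbF hbG] at h2
  have h3 := hgap x hx hx0 (b i) hib
  have h4 := (abs_le.1 (hB x hx0)).1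
  have h5 := (abs_le.1 (hB (b i) (b.ne_zero i))).2
  have h6 := le_abs_self δ
  have h7 : t * (F.w (b i) + g) ≤ t * F.w x := mul_le_mul_of_nonneg_left h3.le ht0
  nlinarith

/-! ### The step theorem -/

namespace State

variable {Hz : Submodule K V} {a : Wt K V → ℝ} {c0 ε : ℝ} {k : ℕ}

theorem exists_next (ha : SlopeHyp Hz a c0) (S : State Hz a c0 ε k) (hne : ¬ Hz ≤ S.P k)
    {ε' : ℝ} (hε' : 0 < ε') (hlt : ε + ε' < c0) :
    ∃ S' : State Hz a c0 (ε + ε') (k + 1), (∀ j ≤ k, S'.P j = S.P j) ∧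
      (∀ j < k, S'.γ j = S.γ j) ∧
      (∀ G, Dom Hz G → Th (k + 1) S'.P S'.γ G + S.R G ≤ a G) := by
  classical
  -- the functional `Theta`
  set Θ : Wt K V → ℝ := fun G => Th k S.P S.γ G + S.R G with hΘ
  have hΘle : ∀ G, Dom Hz G → Θ G ≤ a G := S.le
  have hΘhom : ∀ G t, Dom Hz G → 0 ≤ t → Θ (scale t G) = t * Θ G := by
    intro G t hG ht
    simp only [hΘ]
    rw [Th_scale ht, S.Rhom G t hG ht]; ring
  have hTQnn : ∀ G, Dom Hz G → ∀ Q : Submodule K V, 0 ≤ G.TQ Q := fun G hG Q =>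
    TQ_nonneg hG.nonneg Q
  -- a filtration with positive quotient weight
  obtain ⟨x1, hx1, hx1P⟩ : ∃ x ∈ Hz, x ∉ S.P k := by
    by_contra hcon
    push Not at hcon
    exact hne hcon
  have hindpos : 0 < (ind Hz).TQ (S.P k) := by
    rw [TQ_pos_iff (dom_ind Hz).nonneg]
    exact ⟨x1, hx1P, by rw [ind_of_mem hx1]; norm_num⟩
  -- the constant
  set A : Set ℝ := {r | ∃ G, Dom Hz G ∧ 0 < G.TQ (S.P k) ∧ r = (a G - Θ G) / G.TQ (S.P k)} with hA
  have hAne : A.Nonempty := ⟨_, ind Hz, dom_ind Hz, hindpos, rfl⟩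
  have hAnn : ∀ r ∈ A, 0 ≤ r := by
    rintro _ ⟨G, hG, hpos, rfl⟩
    exact div_nonneg (sub_nonneg.2 (hΘle G hG)) hpos.le
  have hAbdd : BddBelow A := ⟨0, hAnn⟩
  set γk : ℝ := sInf A with hγk
  have hγk0 : 0 ≤ γk := le_csInf hAne hAnn
  -- the function `h`
  set h : Wt K V → ℝ := fun G => a G - Θ G - γk * G.TQ (S.P k) with hh
  have hnn : ∀ G, Dom Hz G → 0 ≤ h G := by
    intro G hG
    simp only [hh]
    rcases (hTQnn G hG (S.P k)).eq_or_lt with h0 | h0
    · rw [← h0, mul_zero]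
      have := hΘle G hG
      linarith
    · have h1 : γk ≤ (a G - Θ G) / G.TQ (S.P k) := csInf_le hAbdd ⟨G, hG, h0, rfl⟩
      have h2 := (le_div_iff₀ h0).1 h1
      linarith
  have hhom : ∀ G t, Dom Hz G → 0 ≤ t → h (scale t G) = t * h G := by
    intro G t hG ht
    simp only [hh]
    rw [ha.hom G t hG ht, hΘhom G t hG ht, TQ_scale ht]; ring
  -- when `k = 0` the constant is at least `c0`
  have hγ0 : k = 0 → c0 ≤ γk := by
    intro hk
    subst hk
    refine le_csInf hAne ?_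
    rintro _ ⟨G, hG, hpos, rfl⟩
    rw [le_div_iff₀ hpos, S.P0, TQ_bot]
    have h2 : Θ G = 0 := by
      simp only [hΘ]
      rw [S.R0 rfl G hG]
      simp [Th]
    rw [h2, sub_zero]
    exact ha.low G hG
  -- choice of the near minimiser
  set N : ℝ := ((finrank K V : ℕ) : ℝ) with hN
  have hN0 : 0 ≤ N := Nat.cast_nonneg _
  set η : ℝ := min (1 / 4) (1 / (2 * (N + 1))) with hη
  have hη0 : 0 < η := lt_min (by norm_num) (by positivity)
  have hη4 : η ≤ 1 / 4 := min_le_left _ _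
  have hηN : N * η ≤ 1 / 2 := by
    have h1 : η ≤ 1 / (2 * (N + 1)) := min_le_right _ _
    have h2 : η * (2 * (N + 1)) ≤ 1 := (le_div_iff₀ (by positivity)).1 h1
    nlinarith
  obtain ⟨_, ⟨G1, hG1, hG1pos, rfl⟩, hG1lt⟩ :=
    exists_lt_of_csInf_lt hAne (show sInf A < γk + ε' * η by
      have := mul_pos hε' hη0
      linarith)
  set F1 : Wt K V := scale (G1.TQ (S.P k))⁻¹ G1 with hF1
  have hinv : 0 ≤ (G1.TQ (S.P k))⁻¹ := (inv_pos.2 hG1pos).le
  have hF1dom : Dom Hz F1 := hG1.scale hinv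
  have hF1TQ : F1.TQ (S.P k) = 1 := by
    rw [hF1, TQ_scale hinv, inv_mul_cancel₀ hG1pos.ne']
  have hF1h : h F1 < ε' * η := by
    rw [hF1, hhom G1 _ hG1 hinv]
    simp only [hh]
    have h1 : (G1.TQ (S.P k))⁻¹ * (a G1 - Θ G1 - γk * G1.TQ (S.P k)) =
        (a G1 - Θ G1) / G1.TQ (S.P k) - γk := by
      field_simp
    rw [h1]
    linarith
  -- the joint filtration
  obtain ⟨t, ht0, htgap⟩ : ∃ t : ℝ, 0 ≤ t ∧ ∀ j ≤ k, Gap (S.F.joint F1 t) (S.P j) 1 := by
    have hex : ∀ j : ℕ, ∃ t₀ : ℝ, 0 ≤ t₀ ∧ (j ≤ k → ∀ t, t₀ ≤ t →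
        Gap (S.F.joint F1 t) (S.P j) 1) := by
      intro j
      by_cases hj : j ≤ k
      · obtain ⟨t₀, h1, h2⟩ := exists_gap_joint (G := F1) (S.step j hj) 1
        exact ⟨t₀, h1, fun _ => h2⟩
      · exact ⟨0, le_rfl, fun h => absurd h hj⟩
    choose tt htt1 htt2 using hex
    refine ⟨∑ j ∈ Finset.range (k + 1), tt j, Finset.sum_nonneg fun j _ => htt1 j,
      fun j hj => htt2 j hj _ ?_⟩
    exact Finset.single_le_sum (f := tt) (fun i _ => htt1 i)
      (Finset.mem_range.2 (Nat.lt_succ_of_le hj))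
  set G0 : Wt K V := S.F.joint F1 t with hG0
  have hG0dom : Dom Hz G0 := S.dom.joint hF1dom ht0
  have hG0TQ : G0.TQ (S.P k) = 1 := by
    rw [hG0, TQ_joint ht0 (S.step k le_rfl), S.TQ_top, mul_zero, zero_add, hF1TQ]
  have hRG0 : t * S.R S.F + S.R F1 ≤ S.R G0 := by
    have h1 := S.Rsup (scale t S.F) F1 (S.dom.scale ht0) hF1dom
    rw [S.Rhom _ _ S.dom ht0] at h1
    have h2 := S.Rlip ((scale t S.F).joint F1 1) G0
      ((S.dom.scale ht0).joint hF1dom zero_le_one) hG0dom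
    have h3 : dst ((scale t S.F).joint F1 1) G0 = 0 := by
      apply le_antisymm _ (dst_nonneg _ _)
      refine dst_le le_rfl fun x hx => ?_
      obtain ⟨b, hbF, hbG⟩ := S.F.exists_adapted₂ F1
      have h2 := joint_adapted ht0 hbF hbG
      have h3 := joint_adapted (zero_le_one : (0:ℝ) ≤ 1) (scale_adapted ht0 hbF) hbG
      have h4 := h3.eq_of_eq h2 (fun i => by
        rw [joint_basis ht0 hbF hbG,
          joint_basis (zero_le_one : (0:ℝ) ≤ 1) (scale_adapted ht0 hbF) hbG, scale_w ht0,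
          one_mul]) hx
      rw [h4, ← hG0]
      simp
    rw [h3, mul_zero, add_zero] at h2
    linarith
  have hThG0 : Th k S.P S.γ G0 = t * Th k S.P S.γ S.F + Th k S.P S.γ F1 := by
    simp only [Th]
    rw [Finset.mul_sum, ← Finset.sum_add_distrib]
    refine Finset.sum_congr rfl fun j hj => ?_
    rw [hG0, TQ_joint ht0 (S.step j (Finset.mem_range.1 hj).le)]
    ring
  have hhG0 : h G0 ≤ h F1 := by
    have h1 := ha.subadd' S.dom hF1dom ht0
    have h2 := S.eq
    simp only [hh, hΘ]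
    rw [hG0TQ, hF1TQ, hThG0]
    rw [← hG0] at h1
    rw [h2] at h1
    linarith
  -- Ekeland
  have hlsc : ∀ F, Dom Hz F → ∀ η' > 0, ∃ δ > 0, ∀ G, Dom Hz G → dst F G < δ →
      h F - η' ≤ h G := by
    intro F hF η' hη'
    obtain ⟨δ, hδ, hδ'⟩ := ha.lsc hF (half_pos hη')
    -- Lipschitz constant of the other terms
    set L : ℝ := ∑ j ∈ Finset.range k, S.γ j * N + ε + γk * N with hL
    have hL0 : 0 ≤ L := by
      have h1 : 0 ≤ ∑ j ∈ Finset.range k, S.γ j * N :=
        Finset.sum_nonneg fun j hj => mul_nonneg (S.γnn j (Finset.mem_range.1 hj)) hN0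
      have h2 := S.εnn
      have h3 := mul_nonneg hγk0 hN0
      linarith
    refine ⟨min δ (η' / (2 * (L + 1))), lt_min hδ (by positivity), fun G hG hd => ?_⟩
    have h1 := hδ' G hG (hd.trans_le (min_le_left _ _))
    have h2 : dst F G * (2 * (L + 1)) ≤ η' :=
      (le_div_iff₀ (by positivity)).1 (hd.le.trans (min_le_right _ _))
    have hd0 := dst_nonneg F G
    have h3 : Th k S.P S.γ G ≤ Th k S.P S.γ F + (∑ j ∈ Finset.range k, S.γ j * N) * dst F G := by
      simp only [Th]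
      rw [Finset.sum_mul, ← Finset.sum_add_distrib]
      refine Finset.sum_le_sum fun j hj => ?_
      have h4 := (abs_le.1 (abs_TQ_sub_le F G (S.P j))).1
      have h5 := mul_le_mul_of_nonneg_left (show G.TQ (S.P j) ≤ F.TQ (S.P j) + N * dst F G by
        linarith) (S.γnn j (Finset.mem_range.1 hj))
      linarith
    have h4 := S.Rlip G F hG hF
    rw [dst_comm G F] at h4
    have h5 : γk * G.TQ (S.P k) ≤ γk * F.TQ (S.P k) + γk * N * dst F G := by
      have h6 := (abs_le.1 (abs_TQ_sub_le F G (S.P k))).1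
      have h7 := mul_le_mul_of_nonneg_left (show G.TQ (S.P k) ≤ F.TQ (S.P k) + N * dst F G by
        linarith) hγk0
      linarith
    have h6 : L * dst F G ≤ η' / 2 := by nlinarith
    simp only [hh, hΘ]
    have h7 : L * dst F G = (∑ j ∈ Finset.range k, S.γ j * N) * dst F G + ε * dst F G +
        γk * N * dst F G := by rw [hL]; ring
    linarith
  obtain ⟨Gs, hGs, hGs1, hGs2⟩ := ekeland_dom h hnn hlsc hG0dom hε'
  have E : EkPoint Hz h ε' Gs := ⟨hε', hnn, hhom, hGs, hGs2⟩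
  have hdist : dst G0 Gs ≤ η := by
    have h1 := hnn Gs hGs
    have h2 : ε' * dst G0 Gs ≤ ε' * η := by linarith
    exact le_of_mul_le_mul_left h2 hε'
  have hgap : ∀ j ≤ k, Gap Gs (S.P j) (1 / 2) := by
    intro j hj x hx hx0 y hy
    have h1 := (htgap j hj).of_dst hdist x hx hx0 y hy
    linarith
  have hTQs : 0 < Gs.TQ (S.P k) := by
    have h1 := (abs_le.1 (abs_TQ_sub_le G0 Gs (S.P k))).2
    have h2 : (finrank K V : ℝ) * dst G0 Gs ≤ N * η := mul_le_mul_of_nonneg_left hdist hN0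
    rw [hG0TQ] at h1
    linarith
  -- the new data
  set P' : ℕ → Submodule K V := fun j => if j ≤ k then S.P j else Gs.subGt 0 with hP'
  set γ' : ℕ → ℝ := fun j => if j < k then S.γ j else γk with hγ'
  have hP'le : ∀ j ≤ k, P' j = S.P j := fun j hj => by simp only [hP']; rw [if_pos hj]
  have hP'k : P' (k + 1) = Gs.subGt 0 := by simp only [hP']; rw [if_neg (by omega)]
  have hγ'lt : ∀ j < k, γ' j = S.γ j := fun j hj => by simp only [hγ']; rw [if_pos hj]
  have hγ'k : γ' k = γk := by simp only [hγ']; rw [if_neg (lt_irrefl _)]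
  have hTh' : ∀ G : Wt K V, Th (k + 1) P' γ' G = Th k S.P S.γ G + γk * G.TQ (S.P k) := by
    intro G
    simp only [Th]
    rw [Finset.sum_range_succ, hγ'k, hP'le k le_rfl]
    congr 1
    refine Finset.sum_congr rfl fun j hj => ?_
    rw [hγ'lt j (Finset.mem_range.1 hj), hP'le j (Finset.mem_range.1 hj).le]
  have hγ'nn : ∀ j < k + 1, 0 ≤ γ' j := by
    intro j hj
    rcases Nat.lt_succ_iff_lt_or_eq.1 hj with h1 | h1
    · rw [hγ'lt j h1]; exact S.γnn j h1
    · rw [h1, hγ'k]; exact hγk0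
  have hγ'0 : c0 ≤ γ' 0 := by
    rcases Nat.eq_zero_or_pos k with h1 | h1
    · have h2 : γ' 0 = γk := by simp only [hγ']; rw [if_neg (by omega)]
      rw [h2]; exact hγ0 h1
    · rw [hγ'lt 0 h1]; exact S.γ0 h1
  have hPk_pos : ∀ x ∈ S.P k, x ≠ 0 → 0 < Gs.w x := by
    intro x hx hx0
    have h1 := hgap k le_rfl x hx hx0 x1 hx1P
    have hx10 : x1 ≠ 0 := fun h => hx1P (h ▸ (S.P k).zero_mem)
    have h2 := hGs.nonneg x1 hx10
    linarith
  refine ⟨
    { P := P'
      γ := γ'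
      F := Gs
      R := fun G => S.R G + Dfun (h Gs) ε' Gs G
      P0 := by rw [hP'le 0 (Nat.zero_le _)]; exact S.P0
      Plt := ?_
      γ0 := fun _ => hγ'0
      γnn := hγ'nn
      dom := hGs
      sub0 := hP'k.symm
      step := ?_
      εnn := by have := S.εnn; linarith
      εlt := hlt
      R0 := fun h0 => absurd h0 (Nat.succ_ne_zero k)
      Rhom := ?_
      Rsup := ?_
      Rlip := ?_
      le := ?_
      eq := ?_
      sat := ?_ }, ?_, ?_, ?_⟩
  · intro j hj
    rcases Nat.lt_succ_iff_lt_or_eq.1 hj with h1 | h1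
    · rw [hP'le j h1.le, hP'le (j + 1) h1]
      exact S.Plt j h1
    · subst h1
      rw [hP'le j le_rfl, hP'k]
      refine lt_of_le_of_ne (fun x hx h0 => hPk_pos x hx h0) ?_
      intro heq
      obtain ⟨y, hy, hyw⟩ := (TQ_pos_iff hGs.nonneg).1 hTQs
      apply hy
      rw [heq]
      exact fun _ => hyw
  · intro j hj
    rcases Nat.le_succ_iff.1 hj with h1 | h1
    · rw [hP'le j h1]
      refine step_of_gap fun x hx hx0 y hy => ?_
      have := hgap j h1 x hx hx0 y hy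
      linarith
    · rw [h1]
      change Gs.Step (P' (k + 1))
      rw [hP'k]
      exact step_subGt _ 0
  · intro G t hG ht
    rw [S.Rhom G t hG ht, E.D_hom hG ht]
    ring
  · intro G H hG hH
    have h1 := S.Rsup G H hG hH
    have h2 := E.D_super hG hH
    linarith
  · intro G H hG hH
    have h1 := S.Rlip G H hG hH
    have h2 := E.D_lip hG hH
    linarith
  · intro G hG
    rw [hTh']
    have h1 := E.D_le hG
    simp only [hh, hΘ] at h1 ⊢
    linarith
  · rw [hTh', E.D_self]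
    simp only [hh, hΘ]
    ring
  · intro G hG hle hale x hx
    have h1 := hGs2 G hG
    have h2 := dst_le_T_sub hle
    have hTh2 : Th (k + 1) P' γ' Gs + c0 * (G.T - Gs.T) ≤ Th (k + 1) P' γ' G := by
      simp only [Th]
      rw [Finset.sum_range_succ', Finset.sum_range_succ']
      have e0 : P' 0 = ⊥ := by rw [hP'le 0 (Nat.zero_le _)]; exact S.P0
      rw [e0, TQ_bot, TQ_bot]
      have e1 : ∑ j ∈ Finset.range k, γ' (j + 1) * Gs.TQ (P' (j + 1)) ≤
          ∑ j ∈ Finset.range k, γ' (j + 1) * G.TQ (P' (j + 1)) :=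
        Finset.sum_le_sum fun j hj => mul_le_mul_of_nonneg_left (TQ_mono hle _)
          (hγ'nn (j + 1) (by have := Finset.mem_range.1 hj; omega))
      have e2 : 0 ≤ G.T - Gs.T := (dst_nonneg _ _).trans h2
      have e3 := mul_le_mul_of_nonneg_right hγ'0 e2
      linarith
    rw [hTh', hTh'] at hTh2
    have h3 := S.Rlip Gs G hGs hG
    have h4 : h G ≤ h Gs - (c0 - ε) * dst Gs G := by
      simp only [hh, hΘ]
      have h5 := mul_le_mul_of_nonneg_left h2 ha.pos.le
      linarith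
    have h5 : (c0 - ε - ε') * dst Gs G ≤ 0 := by linarith
    have h6 : dst Gs G = 0 := by
      apply le_antisymm _ (dst_nonneg _ _)
      by_contra hcon
      push Not at hcon
      have := mul_pos (show 0 < c0 - ε - ε' by linarith) hcon
      linarith
    exact eq_of_dst_eq_zero h6 hx
  · exact hP'le
  · exact hγ'lt
  · intro G hG
    simp only
    rw [hTh']
    have h1 := hnn G hG
    simp only [hh, hΘ] at h1
    linarith

end State

end Vale.Agent.P271.Chain
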